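import Vale.Agent.P158.Main

/-!
No geodesic ray of planar first-passage percolation stays within a logarithmic distance of a line,
for every atomless law of the weights.
-/

namespace Vale.Agent.Results.P158.NoRayNearLine

open Vale.Agent.P158 MeasureTheory

theorem result : ∀ G : Measure ℝ, IsProbabilityMeasure G → G (Set.Iio 0) = 0 → (∀ x, G {x} = 0) →
    ∃ η : ℝ, 0 < η ∧ ∀ᵐ t ∂Measure.infinitePi (fun _ : Edge => G),
      (∀ v : ℕ → V, IsRay t v → ∀ a b c : ℝ, (a, b) ≠ (0, 0) →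
        ∀ i₀ : ℕ, ∃ i, i₀ ≤ i ∧ ¬NearLine η a b c (v i)) ∧
      ∀ v : ℤ → V, IsBigeodesic t v → ∀ a b c : ℝ, (a, b) ≠ (0, 0) → ∀ i₀ : ℤ,
        (∃ i, i₀ ≤ i ∧ ¬NearLine η a b c (v i)) ∧ ∃ i, i ≤ i₀ ∧ ¬NearLine η a b c (v i) :=
  rayStmt

end Vale.Agent.Results.P158.NoRayNearLine
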